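import Vale.Agent.P011.D4X.Defs
import Vale.Agent.P011.D4X.H657.Jq

/-!
Block D4Z: products of two reflections of the octonions in terms of quaternions.
-/

namespace Vale.Agent.P011.D4Z

open Vale.Agent.P011.MPQ Vale.Agent.P011.D4 Vale.Agent.P011.D4.Oct

section refl

variable {F : Type} [Field F] {a b c : Fˣ}

/-- The reflection. -/
def rfo (e y : Oct a b c) : Oct a b c := y - (bil y e / Oct.norm e) • e

/-- The polar form of the reduced norm. -/
def bq (y e : Qt a b) : F := 2 * (y.re * e.re - a * y.imI * e.imI - b * y.imJ * e.imJ +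
  a * b * y.imK * e.imK)

theorem rfq (y e : Qt a b) : nrd e • y - bq y e • e = -(e * star y * e) := by
  ext <;> simp only [nrd, bq, QuaternionAlgebra.re_sub, QuaternionAlgebra.imI_sub,
    QuaternionAlgebra.imJ_sub, QuaternionAlgebra.imK_sub, QuaternionAlgebra.re_smul,
    QuaternionAlgebra.imI_smul, QuaternionAlgebra.imJ_smul, QuaternionAlgebra.imK_smul,
    QuaternionAlgebra.re_neg, QuaternionAlgebra.imI_neg, QuaternionAlgebra.imJ_neg,
    QuaternionAlgebra.imK_neg, QuaternionAlgebra.re_mul, QuaternionAlgebra.imI_mul,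
    QuaternionAlgebra.imJ_mul, QuaternionAlgebra.imK_mul, QuaternionAlgebra.re_star,
    QuaternionAlgebra.imI_star, QuaternionAlgebra.imJ_star, QuaternionAlgebra.imK_star,
    smul_eq_mul] <;> ring

theorem rfq' {e : Qt a b} (he : nrd e ≠ 0) (y : Qt a b) :
    y - (bq y e / nrd e) • e = -((nrd e)⁻¹ • (e * star y * e)) := by
  have h := congrArg (fun z => (nrd e)⁻¹ • z) (rfq y e)
  simp only [smul_sub, smul_smul, inv_mul_cancel₀ he, one_smul, smul_neg] at h
  rw [← h, div_eq_inv_mul]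

theorem rfo_one {e : Qt a b} (he : nrd e ≠ 0) (y : Oct a b c) :
    rfo (⟨e, 0⟩ : Oct a b c) y = ⟨-((nrd e)⁻¹ • (e * star y.fst * e)), y.snd⟩ := by
  have h1 : bil y (⟨e, 0⟩ : Oct a b c) = bq y.fst e := by
    rw [bil_eq, bq]
    simp
  have h2 : Oct.norm (⟨e, 0⟩ : Oct a b c) = nrd e := by
    simp [Oct.norm, nrd]
  rw [rfo, h1, h2]
  apply Oct.ext
  · rw [← rfq' he]
    rfl
  · change y.snd - (bq y.fst e / nrd e) • (0 : Qt a b) = y.snd
    rw [smul_zero, sub_zero]

theorem rfo_two {e : Qt a b} (he : nrd e ≠ 0) (y : Oct a b c) :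
    rfo (⟨0, e⟩ : Oct a b c) y = ⟨y.fst, -((nrd e)⁻¹ • (e * star y.snd * e))⟩ := by
  have hc : (c : F) ≠ 0 := c.ne_zero
  have h1 : bil y (⟨0, e⟩ : Oct a b c) = -(c : F) * bq y.snd e := by
    rw [bil_eq, bq]
    simp
  have h2 : Oct.norm (⟨0, e⟩ : Oct a b c) = -(c : F) * nrd e := by
    simp [Oct.norm, nrd]
  have h3 : -(c : F) * bq y.snd e / (-(c : F) * nrd e) = bq y.snd e / nrd e := by
    field_simp
  rw [rfo, h1, h2, h3]
  apply Oct.ext
  · change y.fst - (bq y.snd e / nrd e) • (0 : Qt a b) = y.fst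
    rw [smul_zero, sub_zero]
  · rw [← rfq' he]
    rfl

theorem two_refl {e e' : Qt a b} (hee : nrd e' = nrd e) (y : Qt a b) :
    -((nrd e')⁻¹ • (e' * star (-((nrd e)⁻¹ • (e * star y * e))) * e')) =
      ((nrd e)⁻¹ • (e' * star e)) * y * star ((nrd e)⁻¹ • (star e' * e)) := by
  rw [hee]
  simp only [star_neg, QuaternionAlgebra.star_smul, star_mul, star_star, mul_neg, neg_mul, smul_neg, neg_neg,
    smul_mul_assoc, mul_smul_comm, smul_smul, mul_assoc]

/-- The product of two reflections in elements of the first quaternion algebra. -/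
theorem rfo_fst {e e' : Qt a b} (he : nrd e ≠ 0) (hee : nrd e' = nrd e) (y : Oct a b c) :
    rfo (⟨e', 0⟩ : Oct a b c) (rfo (⟨e, 0⟩ : Oct a b c) y) =
      ⟨((nrd e)⁻¹ • (e' * star e)) * y.fst * star ((nrd e)⁻¹ • (star e' * e)), y.snd⟩ := by
  rw [rfo_one he, rfo_one (by rw [hee]; exact he)]
  apply Oct.ext
  · exact two_refl hee y.fst
  · rfl

/-- The product of two reflections in elements of the second summand. -/
theorem rfo_snd {e e' : Qt a b} (he : nrd e ≠ 0) (hee : nrd e' = nrd e) (y : Oct a b c) :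
    rfo (⟨0, e'⟩ : Oct a b c) (rfo (⟨0, e⟩ : Oct a b c) y) =
      ⟨y.fst, ((nrd e)⁻¹ • (e' * star e)) * y.snd * star ((nrd e)⁻¹ • (star e' * e))⟩ := by
  rw [rfo_two he, rfo_two (by rw [hee]; exact he)]
  apply Oct.ext
  · rfl
  · exact two_refl hee y.snd

theorem nrd_block {e e' : Qt a b} (he : nrd e ≠ 0) (hee : nrd e' = nrd e) :
    nrd ((nrd e)⁻¹ • (e' * star e)) = 1 ∧ nrd ((nrd e)⁻¹ • (star e' * e)) = 1 := by
  have h1 : ∀ x y : Qt a b, nrd (x * y) = nrd x * nrd y := fun x y => by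
    simp only [nrd, QuaternionAlgebra.re_mul, QuaternionAlgebra.imI_mul,
      QuaternionAlgebra.imJ_mul, QuaternionAlgebra.imK_mul]
    ring
  have h2 : ∀ x : Qt a b, nrd (star x) = nrd x := fun x => by
    simp only [nrd, QuaternionAlgebra.re_star, QuaternionAlgebra.imI_star,
      QuaternionAlgebra.imJ_star, QuaternionAlgebra.imK_star]
    ring
  have h3 : ∀ (t : F) (x : Qt a b), nrd (t • x) = t ^ 2 * nrd x := fun t x => by
    simp only [nrd, QuaternionAlgebra.re_smul, QuaternionAlgebra.imI_smul,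
      QuaternionAlgebra.imJ_smul, QuaternionAlgebra.imK_smul, smul_eq_mul]
    ring
  constructor
  · rw [h3, h1, h2, hee]
    field_simp
  · rw [h3, h1, h2, hee]
    field_simp

/-- Reflections are compatible with isometries. -/
theorem rfo_map {a' b' c' : Fˣ} (f : Oct a b c →ₗ[F] Oct a' b' c')
    (hf : ∀ x, Oct.norm (f x) = Oct.norm x) (e y : Oct a b c) :
    f (rfo e y) = rfo (f e) (f y) := by
  have h : bil (f y) (f e) = bil y e := by
    rw [bil, bil, ← map_add, hf, hf, hf]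
  rw [rfo, rfo, map_sub, map_smul, h, hf]

end refl

end Vale.Agent.P011.D4Z
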